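import Vale.Agent.P002.H934.Clos

/-!
# Potential density of integral points in families of direct images
-/

namespace Vale.Agent.Results.P002.DirectImages

open Matrix NumberField Vale.Agent.P002R.Orb Vale.Agent.P002.H326J Vale.Agent.P002.H2
  Vale.Agent.P002.H252 Vale.Agent.P002.H934

/-- (1) For every member `T` of the class `IsGeom` some number field `L` makes the `𝓞 L`-integral
points and the representations into `SL_r(𝓞 L)` Zariski dense in `T`. The class consists of sets of
representations of finitely presented (or arbitrary) groups `⟨ι | R⟩`, e.g. fundamental groups of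
varieties. It contains the sets with typed very general members (see the hand-in
`TypedConstituents`) and is closed under direct images, subquotients `ker E(V) / im S(V)` on which
the generators act by matrices `B p (V)`, where `E`, `S` and `B` are polynomials with integral
coefficients in the entries of the matrices of the generators (e.g. higher direct images for
fibrations with fibres finite complexes), all constructions given by such polynomials (pullback,
dual, tensor product, Schur functors, induction), direct sums, conjugation, open subsets, unions
and passage to sets in which the given one is dense; so if it contains `YW R w C`, the question has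
a positive answer (with one field) for `Y = YW R w C`.

(2) The direct images in detail. `G = ⟨ι | R⟩` and `Γ = ⟨κ | R'⟩` are groups, `ι` is finite,
`π : Γ → G` is surjective and its kernel `N` is finitely generated (e.g. the map of fundamental
groups given by a fibration `X' → X`, with `N` the fundamental group of the fibre), `χ` is a
character of `G` with values algebraic units. `A` is the union of the conjugacy classes in `Γ` of
the elements `w' j` (e.g. the loops in the fibres round some components of the boundary; `A` may be
empty). `T` is a set of representations of `Γ` into `SL_m` with `V(w' j)` in given conjugacy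
classes, such that for some number field the representations into `SL_m(𝓞)` are dense in `T`, e.g.
any member of the class of (1). For every representation `V` in `T` the representation
`χ ⊗ H¹_A(N, V)` of `G` is a point of `Y = YW R w C`. Then some number field `L` makes the
`𝓞 L`-integral points, and the representations into `SL_r(𝓞 L)`, Zariski dense in the set `DISet`
of all the points of `Y` isomorphic to some `χ ⊗ H¹_A(N, V)`, `V ∈ T`; and in `Y`, if this set is
dense in `Y`. -/
theorem result :
    (∀ (ι : Type) (R : Set (FreeGroup ι)) (r : ℕ) (T : Set (ι → SpecialLinearGroup (Fin r) ℂ)),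
      IsGeom R T → ∃ L : IntermediateField ℚ ℂ, FiniteDimensional ℚ L ∧ IsDense R L T ∧
        IsDenseRep L T) ∧
    ∀ (ι κ : Type) [Finite ι] (R : Set (FreeGroup ι)) (R' : Set (FreeGroup κ)) (m r s s' : ℕ)
      (π : PresentedGroup R' →* PresentedGroup R) (χ : PresentedGroup R →* ℂˣ)
      (T : Set (κ → SpecialLinearGroup (Fin m) ℂ))
      (w' : Fin s' → FreeGroup κ) (C' : Fin s' → SpecialLinearGroup (Fin m) ℂ)
      (w : Fin s → FreeGroup ι) (C : Fin s → SpecialLinearGroup (Fin r) ℂ),
      Function.Surjective π → π.ker.FG → (∀ g, IsIntegral ℤ (χ g).1) →
      (∃ L : IntermediateField ℚ ℂ, FiniteDimensional ℚ L ∧ IsDenseRep L T) →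
      (∀ V ∈ T, ∀ j, IsConj (C' j) (FreeGroup.lift V (w' j))) →
      (∀ V ∈ T, ∃ X, X ∈ DISet π w' χ {V} (YW R w C)) →
      ∃ L : IntermediateField ℚ ℂ, FiniteDimensional ℚ L ∧
        IsDense R L (DISet π w' χ T (YW R w C)) ∧ IsDenseRep L (DISet π w' χ T (YW R w C)) ∧
        (IsDenseIn (DISet π w' χ T (YW R w C)) (YW R w C) →
          IsDense R L (YW R w C) ∧ IsDenseRep L (YW R w C)) := by
  refine ⟨fun ι R r T h => ?_, ?_⟩
  · obtain ⟨L, hL, h⟩ := h.hasDense
    exact ⟨L, hL, IsDenseRep.isDense h, h⟩
  · intro ι κ _ R R' m r s s' π χ T w' C' w C hπ hN hχ hL' hT hU
    obtain ⟨L, hL, h⟩ := dense_direct hL' π hπ hN χ hχ w' C' hT (YW R w C)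
      (fun X hX g => YW_conj w C hX g) hU
    refine ⟨L, hL, IsDenseRep.isDense h, h, fun hd => ?_⟩
    have h1 := dense_closure h (fun X hX => hX.1) hd
    exact ⟨IsDenseRep.isDense h1, h1⟩

end Vale.Agent.Results.P002.DirectImages
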